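import Vale.Agent.P235.K5.W.H531.Dich
import Vale.Agent.P235.H648.Ncv

/-!
P235, line K5, [WAG], Theorem W without hubs (helper427 #17256), file 1: models of an arbitrary
graph `H`, the three moves (drop a vertex, move a vertex, grow), non cut vertices.
-/

set_option autoImplicit false

namespace Vale.Agent.P235.K5.W.H427

open SimpleGraph Vale.Agent.P235.H134 Vale.Agent.P235.H56 Vale.Agent.P235.K5.W.H531

variable {V ι : Type} {G : SimpleGraph V} {H : SimpleGraph ι}

/-- a model of `H` in `G` -/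
structure Mdl (G : SimpleGraph V) (H : SimpleGraph ι) (U : ι → Set V) : Prop where
  c : ∀ i, Con G (U i)
  d : ∀ i j, i ≠ j → Disjoint (U i) (U j)
  t : ∀ i j, H.Adj i j → Tch G (U i) (U j)

theorem Mdl.ne {U : ι → Set V} (h : Mdl G H U) (i : ι) : (U i).Nonempty := by
  obtain ⟨⟨x, hx⟩⟩ := (h.c i).nonempty
  exact ⟨x, hx⟩

theorem Mdl.nin {U : ι → Set V} (h : Mdl G H U) {i j : ι} (hij : i ≠ j) {x : V} (hx : x ∈ U i) :
    x ∉ U j := fun hx' => Set.disjoint_left.1 (h.d i j hij) hx hx'

theorem Mdl.comp {κ : Type} {K : SimpleGraph κ} {U : ι → Set V} (h : Mdl G H U) (e : κ → ι)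
    (he : Function.Injective e) (hadj : ∀ i j, K.Adj i j → H.Adj (e i) (e j)) :
    Mdl G K (fun i => U (e i)) :=
  ⟨fun i => h.c _, fun i j hij => h.d _ _ fun h => hij (he h), fun i j hij => h.t _ _ (hadj i j hij)⟩

theorem exists_min {α : Type} (P : α → Prop) (m : α → ℕ) (h : ∃ x, P x) :
    ∃ x, P x ∧ ∀ y, P y → m x ≤ m y := by
  classical
  have h' : ∃ n, ∃ x, P x ∧ m x = n := by
    obtain ⟨x, hx⟩ := h
    exact ⟨m x, x, hx, rfl⟩
  obtain ⟨x, hx, hm⟩ := Nat.find_spec h'
  exact ⟨x, hx, fun y hy => hm.trans_le (Nat.find_min' h' ⟨y, hy, rfl⟩)⟩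

section moves

variable [DecidableEq ι]

theorem Mdl.drop {U : ι → Set V} (h : Mdl G H U) {i : ι} {X : Set V} (hX : X ⊆ U i)
    (hc : Con G X) (ht : ∀ j, H.Adj i j → Tch G X (U j)) :
    Mdl G H (Function.update U i X) := by
  have hsub : ∀ j, Function.update U i X j ⊆ U j := by
    intro j
    by_cases hj : j = i
    · subst hj; rw [Function.update_self]; exact hX
    · rw [Function.update_of_ne hj]
  refine ⟨fun j => ?_, fun j k hjk => (h.d j k hjk).mono (hsub j) (hsub k), fun j k hjk => ?_⟩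
  · by_cases hj : j = i
    · subst hj; rw [Function.update_self]; exact hc
    · rw [Function.update_of_ne hj]; exact h.c j
  · by_cases hj : j = i
    · subst hj
      rw [Function.update_self, Function.update_of_ne hjk.ne']
      exact ht k hjk
    · by_cases hk : k = i
      · subst hk
        rw [Function.update_self, Function.update_of_ne hj]
        exact (ht j hjk.symm).symm
      · rw [Function.update_of_ne hj, Function.update_of_ne hk]
        exact h.t j k hjk

theorem Mdl.grow {U : ι → Set V} (h : Mdl G H U) {k : ι} {Y : Set V} (hY : Con G Y)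
    (hd : ∀ i, Disjoint (U i) Y) (hk : Tch G (U k) Y) :
    Mdl G H (Function.update U k (U k ∪ Y)) := by
  have hsub : ∀ j, U j ⊆ Function.update U k (U k ∪ Y) j := by
    intro j
    by_cases hj : j = k
    · subst hj; rw [Function.update_self]; exact Set.subset_union_left
    · rw [Function.update_of_ne hj]
  refine ⟨fun j => ?_, fun j l hjl => ?_, fun j l hjl => (h.t j l hjl).mono (hsub j) (hsub l)⟩
  · by_cases hj : j = k
    · subst hj; rw [Function.update_self]; exact con_union (h.c j) hY hk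
    · rw [Function.update_of_ne hj]; exact h.c j
  · by_cases hj : j = k
    · subst hj
      rw [Function.update_self, Function.update_of_ne hjl.symm, Set.disjoint_union_left]
      exact ⟨h.d j l hjl, (hd l).symm⟩
    · by_cases hl : l = k
      · subst hl
        rw [Function.update_self, Function.update_of_ne hj, Set.disjoint_union_right]
        exact ⟨h.d j l hjl, hd j⟩
      · rw [Function.update_of_ne hj, Function.update_of_ne hl]
        exact h.d j l hjl

theorem split_tch {X : Set V} (hX : Con G X) {v : V} (hv : v ∈ X) (hc : Con G (X \ {v})) :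
    Tch G (X \ {v}) {v} := by
  obtain ⟨⟨x, hx⟩⟩ := hc.nonempty
  exact tch_of_split hX (Set.sdiff_union_of_subset (Set.singleton_subset_iff.2 hv)) ⟨x, hx⟩
    ⟨v, rfl⟩ Set.disjoint_sdiff_left

theorem Mdl.move {U : ι → Set V} (h : Mdl G H U) {i k : ι} (hik : H.Adj i k) {v : V}
    (hv : v ∈ U i) (hc : Con G (U i \ {v}))
    (ht : ∀ j, H.Adj i j → j ≠ k → Tch G (U i \ {v}) (U j))
    (hn : ¬ Tch G (U i \ {v}) (U k)) :
    Mdl G H (Function.update (Function.update U i (U i \ {v})) k (U k ∪ {v})) := by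
  have hne : i ≠ k := hik.ne
  have hv1 : Tch G (U i \ {v}) {v} := split_tch (h.c i) hv hc
  have hv2 : Tch G (U k) {v} := by
    have h1 := h.t i k hik
    rw [← Set.sdiff_union_of_subset (Set.singleton_subset_iff.2 hv), tch_union_left] at h1
    rcases h1 with h1 | h1
    · exact absurd h1 hn
    · exact h1.symm
  obtain ⟨U', hU'⟩ : ∃ U', U' = Function.update (Function.update U i (U i \ {v})) k (U k ∪ {v}) :=
    ⟨_, rfl⟩
  rw [← hU']
  have e1 : U' k = U k ∪ {v} := by rw [hU', Function.update_self]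
  have e2 : U' i = U i \ {v} := by
    rw [hU', Function.update_of_ne hne, Function.update_self]
  have e3 : ∀ j, j ≠ i → j ≠ k → U' j = U j := by
    intro j hj hj'
    rw [hU', Function.update_of_ne hj', Function.update_of_ne hj]
  have hsub : ∀ j, j ≠ i → U j ⊆ U' j := by
    intro j hj
    by_cases hj' : j = k
    · subst hj'; rw [e1]; exact Set.subset_union_left
    · rw [e3 j hj hj']
  have hmem : ∀ j z, z ∈ U' j → (z = v ∧ j = k) ∨ (z ≠ v ∧ z ∈ U j) := by
    intro j z hz
    by_cases hj' : j = k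
    · subst hj'
      rw [e1] at hz
      rcases hz with hz | hz
      · exact Or.inr ⟨fun h' => h.nin hne hv (h' ▸ hz), hz⟩
      · exact Or.inl ⟨hz, rfl⟩
    · by_cases hj : j = i
      · subst hj
        rw [e2] at hz
        exact Or.inr ⟨hz.2, hz.1⟩
      · rw [e3 j hj hj'] at hz
        exact Or.inr ⟨fun h' => h.nin (Ne.symm hj) hv (h' ▸ hz), hz⟩
  have key : ∀ l, H.Adj i l → Tch G (U' i) (U' l) := by
    intro l hl
    rw [e2]
    by_cases hlk : l = k
    · subst hlk; rw [e1]
      exact hv1.mono le_rfl Set.subset_union_right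
    · exact (ht l hl hlk).mono le_rfl (hsub l hl.ne')
  refine ⟨fun j => ?_, fun j l hjl => ?_, fun j l hjl => ?_⟩
  · by_cases hj' : j = k
    · subst hj'; rw [e1]; exact con_union (h.c j) (conn_single G v) hv2
    · by_cases hj : j = i
      · subst hj; rw [e2]; exact hc
      · rw [e3 j hj hj']; exact h.c j
  · rw [Set.disjoint_left]
    intro z hz hz'
    rcases hmem j z hz with ⟨h1, h2⟩ | ⟨h1, h2⟩
    · rcases hmem l z hz' with ⟨h3, h4⟩ | ⟨h3, h4⟩
      · exact hjl (h2.trans h4.symm)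
      · exact h3 h1
    · rcases hmem l z hz' with ⟨h3, h4⟩ | ⟨h3, h4⟩
      · exact h1 h3
      · exact h.nin hjl h2 h4
  · by_cases hj : j = i
    · subst hj; exact key l hjl
    · by_cases hl : l = i
      · subst hl; exact (key j hjl.symm).symm
      · exact (h.t j l hjl).mono (hsub j hj) (hsub l hl)

/-- drop or move -/
theorem Mdl.improve {U : ι → Set V} (h : Mdl G H U) {i k : ι} (hik : H.Adj i k) {v : V}
    (hv : v ∈ U i) (hc : Con G (U i \ {v}))
    (ht : ∀ j, H.Adj i j → j ≠ k → Tch G (U i \ {v}) (U j)) :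
    Mdl G H (Function.update U i (U i \ {v})) ∨
      Mdl G H (Function.update (Function.update U i (U i \ {v})) k (U k ∪ {v})) := by
  by_cases hn : Tch G (U i \ {v}) (U k)
  · refine Or.inl (h.drop Set.sdiff_subset hc fun j hj => ?_)
    by_cases hjk : j = k
    · subst hjk; exact hn
    · exact ht j hj hjk
  · exact Or.inr (h.move hik hv hc ht hn)

end moves

theorem two_or_move {U : ι → Set V} {i k0 : ι} {X : Set V} (hk0 : H.Adj i k0)
    (hno : ∀ k, H.Adj i k → (∀ j, H.Adj i j → j ≠ k → Tch G X (U j)) → False) :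
    ∃ j k, j ≠ k ∧ H.Adj i j ∧ H.Adj i k ∧ ¬ Tch G X (U j) ∧ ¬ Tch G X (U k) := by
  by_contra hcon
  by_cases h1 : ∃ k, H.Adj i k ∧ ¬ Tch G X (U k)
  · obtain ⟨k, hk, hk'⟩ := h1
    refine hno k hk fun j hj hjk => ?_
    by_contra hj'
    exact hcon ⟨j, k, hjk, hj, hk, hj', hk'⟩
  · refine hno k0 hk0 fun j hj _ => ?_
    by_contra hj'
    exact h1 ⟨j, hj, hj'⟩

theorem two_common [DecidableEq ι] {s : Finset ι} (hs : s.card ≤ 3) {j k j' k' : ι} (h1 : j ∈ s)
    (h2 : k ∈ s) (h3 : j' ∈ s) (h4 : k' ∈ s) (hjk : j ≠ k) (hjk' : j' ≠ k') :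
    j = j' ∨ j = k' ∨ k = j' ∨ k = k' := by
  by_contra hno
  push Not at hno
  obtain ⟨n1, n2, n3, n4⟩ := hno
  have h5 : ({j, k, j', k'} : Finset ι) ⊆ s := by
    intro x hx
    simp only [Finset.mem_insert, Finset.mem_singleton] at hx
    rcases hx with rfl | rfl | rfl | rfl <;> assumption
  have h6 := Finset.card_le_card h5
  have h7 : ({j, k, j', k'} : Finset ι).card = 4 := by
    rw [Finset.card_insert_of_notMem, Finset.card_insert_of_notMem, Finset.card_insert_of_notMem,
      Finset.card_singleton]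
    · simpa using hjk'
    · simp [n3, n4]
    · simp [hjk, n1, n2]
  omega

/-- a branch set whose non cut vertices are each the only contact with two neighbours (out of at
most three) is a single vertex -/
theorem Mdl.single [Finite V] [DecidableEq ι] {U : ι → Set V} (h : Mdl G H U) {i : ι}
    {s : Finset ι} (hs : s.card ≤ 3) (hsi : ∀ j, H.Adj i j → j ∈ s)
    (hno : ∀ v ∈ U i, Con G (U i \ {v}) → ∃ j k, j ≠ k ∧ H.Adj i j ∧ H.Adj i k ∧
      ¬ Tch G (U i \ {v}) (U j) ∧ ¬ Tch G (U i \ {v}) (U k)) : ∃ v, U i = {v} := by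
  obtain ⟨z, hz⟩ := h.ne i
  by_contra hne
  obtain ⟨x, hx, hxz, hcx⟩ := H648.ncv V G (U i) z (h.c i) hz fun h' => hne ⟨z, h'⟩
  obtain ⟨y, hy, hyx, hcy⟩ := H648.ncv V G (U i) x (h.c i) hx fun h' => hne ⟨x, h'⟩
  obtain ⟨j, k, hjk, hj, hk, hj', hk'⟩ := hno x hx hcx
  obtain ⟨l, m, hlm, hl, hm, hl', hm'⟩ := hno y hy hcy
  have key : ∀ c, H.Adj i c → ¬ Tch G (U i \ {x}) (U c) → ¬ Tch G (U i \ {y}) (U c) → False := by
    intro c hc h1 h2
    obtain ⟨w, hw, u, hu, hwu⟩ := h.t i c hc
    by_cases hwx : w = x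
    · exact h2 ⟨w, ⟨hw, fun h' => hyx ((show w = y from h').symm.trans hwx)⟩, u, hu, hwu⟩
    · exact h1 ⟨w, ⟨hw, hwx⟩, u, hu, hwu⟩
  rcases two_common hs (hsi j hj) (hsi k hk) (hsi l hl) (hsi m hm) hjk hlm with e | e | e | e
  · exact key j hj hj' (e ▸ hl')
  · exact key j hj hj' (e ▸ hm')
  · exact key k hk hk' (e ▸ hl')
  · exact key k hk hk' (e ▸ hm')

theorem ncard_le_card [Finite V] (X : Set V) : X.ncard ≤ Nat.card V := by
  rw [← Set.ncard_univ]
  exact Set.ncard_le_ncard (Set.subset_univ _) (Set.toFinite _)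

end Vale.Agent.P235.K5.W.H427
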