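import Vale.Agent.P235.K5.W.H427.Mdl

/-!
P235, line K5, [WAG], Theorem W without hubs (helper427 #17256), file 2: `V_8`.

* `chord`: a model of `V_8` with a chord gives `K_5`;
* `no9` (V8a): `G` 3-connected without `K_5` minor has no model of `V_8` with one edge subdivided;
* `card8` (V8b): such a `G` with a model of `V_8` has exactly `8` vertices and no triangle.
-/

set_option autoImplicit false

namespace Vale.Agent.P235.K5.W.H427

open SimpleGraph Vale.Agent.P235.H134 Vale.Agent.P235.H56 Vale.Agent.P235.K5.W.H531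

variable {V : Type} {G : SimpleGraph V}

/-- `V_8`: rim `i, i+1` and spokes `i, i+4` -/
def V8 : SimpleGraph (Fin 8) where
  Adj i j := j = i + 1 ∨ i = j + 1 ∨ j = i + 4
  symm := ⟨by decide⟩
  loopless := ⟨by decide⟩

instance : DecidableRel V8.Adj := fun i j =>
  inferInstanceAs (Decidable (j = i + 1 ∨ i = j + 1 ∨ j = i + 4))

/-- `V_8` with the edge `a b` subdivided -/
def H9 (a b : Fin 8) : SimpleGraph (Option (Fin 8)) where
  Adj x y := match x, y with
    | some i, some j => V8.Adj i j ∧ ¬ (i = a ∧ j = b) ∧ ¬ (i = b ∧ j = a)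
    | some i, none => i = a ∨ i = b
    | none, some j => j = a ∨ j = b
    | none, none => False
  symm := ⟨by
    rintro (_ | i) (_ | j) h
    · exact h
    · exact h
    · exact h
    · exact ⟨h.1.symm, fun h' => h.2.2 ⟨h'.2, h'.1⟩, fun h' => h.2.1 ⟨h'.2, h'.1⟩⟩⟩
  loopless := ⟨by
    rintro (_ | i) h
    · exact h
    · exact h.1.ne rfl⟩

theorem H9_comm (a b : Fin 8) : H9 a b = H9 b a := by
  ext x y
  rcases x with _ | i <;> rcases y with _ | j
  · exact Iff.rfl
  · exact or_comm
  · exact or_comm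
  · show (_ ∧ _ ∧ _) ↔ (_ ∧ _ ∧ _)
    tauto

/-- the neighbours of a vertex of `V_8` -/
theorem V8_nb : ∀ i j : Fin 8, V8.Adj i j → j ∈ ({i + 1, i + 7, i + 4} : Finset (Fin 8)) := by
  decide

theorem V8_tri : ∀ i j k : Fin 8, V8.Adj i j → V8.Adj j k → ¬ V8.Adj i k := by decide

theorem V8_nonadj : ∀ i j : Fin 8, i ≠ j → ¬ V8.Adj i j →
    j = i + 2 ∨ j = i + 3 ∨ i = j + 2 ∨ i = j + 3 := by decide

theorem V8_other : ∀ a b : Fin 8, ∃ c, c ≠ a ∧ c ≠ b := by decide

private theorem c2a : ∀ i : Fin 8, ∀ a : Fin 5,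
    (![i, i + 2, i + 1, i + 3, i + 6] : Fin 5 → Fin 8) a =
      (![i, i + 2, i + 5, i + 4, i + 7] : Fin 5 → Fin 8) a ∨
    V8.Adj ((![i, i + 2, i + 1, i + 3, i + 6] : Fin 5 → Fin 8) a)
      ((![i, i + 2, i + 5, i + 4, i + 7] : Fin 5 → Fin 8) a) := by decide

private theorem c2d : ∀ i : Fin 8, ∀ a b : Fin 5, a ≠ b →
    (![i, i + 2, i + 1, i + 3, i + 6] : Fin 5 → Fin 8) a ≠
      (![i, i + 2, i + 1, i + 3, i + 6] : Fin 5 → Fin 8) b ∧
    (![i, i + 2, i + 1, i + 3, i + 6] : Fin 5 → Fin 8) a ≠
      (![i, i + 2, i + 5, i + 4, i + 7] : Fin 5 → Fin 8) b ∧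
    (![i, i + 2, i + 5, i + 4, i + 7] : Fin 5 → Fin 8) a ≠
      (![i, i + 2, i + 1, i + 3, i + 6] : Fin 5 → Fin 8) b ∧
    (![i, i + 2, i + 5, i + 4, i + 7] : Fin 5 → Fin 8) a ≠
      (![i, i + 2, i + 5, i + 4, i + 7] : Fin 5 → Fin 8) b := by decide

private theorem c2t : ∀ i : Fin 8, ∀ a b : Fin 5, a < b → (a = 0 ∧ b = 1) ∨
    V8.Adj ((![i, i + 2, i + 1, i + 3, i + 6] : Fin 5 → Fin 8) a)
      ((![i, i + 2, i + 1, i + 3, i + 6] : Fin 5 → Fin 8) b) ∨
    V8.Adj ((![i, i + 2, i + 1, i + 3, i + 6] : Fin 5 → Fin 8) a)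
      ((![i, i + 2, i + 5, i + 4, i + 7] : Fin 5 → Fin 8) b) ∨
    V8.Adj ((![i, i + 2, i + 5, i + 4, i + 7] : Fin 5 → Fin 8) a)
      ((![i, i + 2, i + 1, i + 3, i + 6] : Fin 5 → Fin 8) b) ∨
    V8.Adj ((![i, i + 2, i + 5, i + 4, i + 7] : Fin 5 → Fin 8) a)
      ((![i, i + 2, i + 5, i + 4, i + 7] : Fin 5 → Fin 8) b) := by decide

private theorem c3a : ∀ i : Fin 8, ∀ a : Fin 5,
    (![i, i + 3, i + 1, i + 4, i + 6] : Fin 5 → Fin 8) a =
      (![i, i + 3, i + 2, i + 5, i + 7] : Fin 5 → Fin 8) a ∨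
    V8.Adj ((![i, i + 3, i + 1, i + 4, i + 6] : Fin 5 → Fin 8) a)
      ((![i, i + 3, i + 2, i + 5, i + 7] : Fin 5 → Fin 8) a) := by decide

private theorem c3d : ∀ i : Fin 8, ∀ a b : Fin 5, a ≠ b →
    (![i, i + 3, i + 1, i + 4, i + 6] : Fin 5 → Fin 8) a ≠
      (![i, i + 3, i + 1, i + 4, i + 6] : Fin 5 → Fin 8) b ∧
    (![i, i + 3, i + 1, i + 4, i + 6] : Fin 5 → Fin 8) a ≠
      (![i, i + 3, i + 2, i + 5, i + 7] : Fin 5 → Fin 8) b ∧
    (![i, i + 3, i + 2, i + 5, i + 7] : Fin 5 → Fin 8) a ≠
      (![i, i + 3, i + 1, i + 4, i + 6] : Fin 5 → Fin 8) b ∧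
    (![i, i + 3, i + 2, i + 5, i + 7] : Fin 5 → Fin 8) a ≠
      (![i, i + 3, i + 2, i + 5, i + 7] : Fin 5 → Fin 8) b := by decide

private theorem c3t : ∀ i : Fin 8, ∀ a b : Fin 5, a < b → (a = 0 ∧ b = 1) ∨
    V8.Adj ((![i, i + 3, i + 1, i + 4, i + 6] : Fin 5 → Fin 8) a)
      ((![i, i + 3, i + 1, i + 4, i + 6] : Fin 5 → Fin 8) b) ∨
    V8.Adj ((![i, i + 3, i + 1, i + 4, i + 6] : Fin 5 → Fin 8) a)
      ((![i, i + 3, i + 2, i + 5, i + 7] : Fin 5 → Fin 8) b) ∨
    V8.Adj ((![i, i + 3, i + 2, i + 5, i + 7] : Fin 5 → Fin 8) a)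
      ((![i, i + 3, i + 1, i + 4, i + 6] : Fin 5 → Fin 8) b) ∨
    V8.Adj ((![i, i + 3, i + 2, i + 5, i + 7] : Fin 5 → Fin 8) a)
      ((![i, i + 3, i + 2, i + 5, i + 7] : Fin 5 → Fin 8) b) := by decide

theorem chord2 {U : Fin 8 → Set V} (h : Mdl G V8 U) (i : Fin 8) (ht : Tch G (U i) (U (i + 2))) :
    IsMinor (⊤ : SimpleGraph (Fin 5)) G := by
  refine k5_family h.c h.d ![i, i + 2, i + 1, i + 3, i + 6] ![i, i + 2, i + 5, i + 4, i + 7]
    (fun a => (c2a i a).imp_right (h.t _ _)) (c2d i) (fun a b hab => ?_)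
  rcases c2t i a b hab with ⟨rfl, rfl⟩ | h' | h' | h' | h'
  · exact Or.inl ht
  · exact Or.inl (h.t _ _ h')
  · exact Or.inr (Or.inl (h.t _ _ h'))
  · exact Or.inr (Or.inr (Or.inl (h.t _ _ h')))
  · exact Or.inr (Or.inr (Or.inr (h.t _ _ h')))

theorem chord3 {U : Fin 8 → Set V} (h : Mdl G V8 U) (i : Fin 8) (ht : Tch G (U i) (U (i + 3))) :
    IsMinor (⊤ : SimpleGraph (Fin 5)) G := by
  refine k5_family h.c h.d ![i, i + 3, i + 1, i + 4, i + 6] ![i, i + 3, i + 2, i + 5, i + 7]
    (fun a => (c3a i a).imp_right (h.t _ _)) (c3d i) (fun a b hab => ?_)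
  rcases c3t i a b hab with ⟨rfl, rfl⟩ | h' | h' | h' | h'
  · exact Or.inl ht
  · exact Or.inl (h.t _ _ h')
  · exact Or.inr (Or.inl (h.t _ _ h'))
  · exact Or.inr (Or.inr (Or.inl (h.t _ _ h')))
  · exact Or.inr (Or.inr (Or.inr (h.t _ _ h')))

/-- `V_8` with a chord contains `K_5` -/
theorem chord {U : Fin 8 → Set V} (h : Mdl G V8 U) {i j : Fin 8} (hij : i ≠ j)
    (hn : ¬ V8.Adj i j) (ht : Tch G (U i) (U j)) : IsMinor (⊤ : SimpleGraph (Fin 5)) G := by
  rcases V8_nonadj i j hij hn with rfl | rfl | rfl | rfl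
  · exact chord2 h i ht
  · exact chord3 h i ht
  · exact chord2 h j ht.symm
  · exact chord3 h j ht.symm

/-- the subdivided edge is contracted -/
theorem merge9 {a b : Fin 8} (hab : V8.Adj a b) {U : Option (Fin 8) → Set V}
    (h : Mdl G (H9 a b) U) :
    Mdl G V8 (Function.update (fun i => U (some i)) a (U (some a) ∪ U none)) := by
  have hsub : ∀ j, U (some j) ⊆
      Function.update (fun i => U (some i)) a (U (some a) ∪ U none) j := by
    intro j
    by_cases hj : j = a
    · subst hj; rw [Function.update_self]; exact Set.subset_union_left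
    · rw [Function.update_of_ne hj]
  have ha : Tch G (U (some a)) (U none) := h.t (some a) none (Or.inl rfl)
  have hb : Tch G (U none) (U (some b)) := h.t none (some b) (Or.inr rfl)
  refine ⟨fun j => ?_, fun j l hjl => ?_, fun j l hjl => ?_⟩
  · by_cases hj : j = a
    · subst hj; rw [Function.update_self]; exact con_union (h.c _) (h.c _) ha
    · rw [Function.update_of_ne hj]; exact h.c _
  · by_cases hj : j = a
    · subst hj
      rw [Function.update_self, Function.update_of_ne hjl.symm, Set.disjoint_union_left]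
      exact ⟨h.d _ _ (fun h' => hjl (Option.some_injective _ h')), h.d none (some l) (by simp)⟩
    · by_cases hl : l = a
      · subst hl
        rw [Function.update_self, Function.update_of_ne hj, Set.disjoint_union_right]
        exact ⟨h.d _ _ (fun h' => hjl (Option.some_injective _ h')), h.d (some j) none (by simp)⟩
      · rw [Function.update_of_ne hj, Function.update_of_ne hl]
        exact h.d _ _ (fun h' => hjl (Option.some_injective _ h'))
  · by_cases h1 : j = a ∧ l = b
    · obtain ⟨rfl, rfl⟩ := h1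
      rw [Function.update_self, Function.update_of_ne hjl.ne']
      exact hb.mono Set.subset_union_right le_rfl
    · by_cases h2 : j = b ∧ l = a
      · obtain ⟨rfl, rfl⟩ := h2
        rw [Function.update_self, Function.update_of_ne hjl.ne]
        exact hb.symm.mono le_rfl Set.subset_union_right
      · exact (h.t (some j) (some l) ⟨hjl, h1, h2⟩).mono (hsub j) (hsub l)

/-- the branch set of the subdividing vertex touches only the two ends -/
theorem touch9 {a b : Fin 8} (hab : V8.Adj a b) {U : Option (Fin 8) → Set V}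
    (h : Mdl G (H9 a b) U) (h5 : ¬ IsMinor (⊤ : SimpleGraph (Fin 5)) G) {k : Fin 8}
    (ht : Tch G (U none) (U (some k))) : k = a ∨ k = b := by
  by_contra hno
  push Not at hno
  have key : ∀ a b : Fin 8, V8.Adj a b → Mdl G (H9 a b) U → k ≠ a → ¬ V8.Adj a k → False := by
    intro a b hab h hka hn
    refine h5 (chord (merge9 hab h) (Ne.symm hka) hn ?_)
    rw [Function.update_self, Function.update_of_ne hka]
    exact ht.mono Set.subset_union_right le_rfl
  by_cases hak : V8.Adj a k
  · have hbk : ¬ V8.Adj b k := V8_tri b a k hab.symm hak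
    exact key b a hab.symm (H9_comm a b ▸ h) hno.2 hbk
  · exact key a b hab h hno.1 hak

/-- the measure: first `Q` large, then the two ends small -/
noncomputable def m9 (a b : Fin 8) (U : Option (Fin 8) → Set V) : ℕ :=
  (Nat.card V - (U none).ncard) * (Nat.card V + 1) + (U (some a) ∪ U (some b)).ncard

theorem m9_comm (a b : Fin 8) (U : Option (Fin 8) → Set V) : m9 a b U = m9 b a U := by
  unfold m9
  rw [Set.union_comm]

theorem m9_lt1 [Finite V] {a b : Fin 8} {U U' : Option (Fin 8) → Set V}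
    (h : (U none).ncard < (U' none).ncard) : m9 a b U' < m9 a b U := by
  unfold m9
  have h1 := ncard_le_card (U' none)
  have h2 := ncard_le_card (U' (some a) ∪ U' (some b))
  obtain ⟨p, hp⟩ : ∃ p, Nat.card V = (U' none).ncard + p := ⟨_, (Nat.add_sub_of_le h1).symm⟩
  have e1 : Nat.card V - (U' none).ncard = p := by omega
  have e2 : p + 1 ≤ Nat.card V - (U none).ncard := by omega
  have e3 := Nat.mul_le_mul_right (Nat.card V + 1) e2
  rw [e1]
  nlinarith [e3]

theorem m9_lt2 [Finite V] {a b : Fin 8} {U U' : Option (Fin 8) → Set V}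
    (h : U' none = U none) (ha : U' (some a) ⊆ U (some a)) (hb : U' (some b) ⊆ U (some b))
    {v : V} (hv : v ∈ U (some a)) (hv1 : v ∉ U' (some a)) (hv2 : v ∉ U' (some b)) :
    m9 a b U' < m9 a b U := by
  unfold m9
  rw [h]
  refine Nat.add_lt_add_left (Set.ncard_lt_ncard ?_ (Set.toFinite _)) _
  refine ⟨Set.union_subset_union ha hb, fun hs => ?_⟩
  rcases hs (Or.inl hv) with h' | h'
  · exact hv1 h'
  · exact hv2 h'

theorem H9_nb : ∀ a b : Fin 8, V8.Adj a b →
    (insert none ((({a + 1, a + 7, a + 4} : Finset (Fin 8)).erase b).map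
      Function.Embedding.some) : Finset (Option (Fin 8))).card ≤ 3 := by
  decide

theorem single9 [Finite V] {a b : Fin 8} (hab : V8.Adj a b) {U : Option (Fin 8) → Set V}
    (h : Mdl G (H9 a b) U) (hmin : ∀ U', Mdl G (H9 a b) U' → m9 a b U ≤ m9 a b U') :
    ∃ v, U (some a) = {v} := by
  refine h.single (H9_nb a b hab) (i := some a) ?_ ?_
  · rintro (_ | j) hj
    · exact Finset.mem_insert_self _ _
    · refine Finset.mem_insert_of_mem (Finset.mem_map.2 ⟨j, Finset.mem_erase.2 ⟨?_, ?_⟩, rfl⟩)
      · exact fun hjb => hj.2.1 ⟨rfl, hjb⟩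
      · exact V8_nb a j hj.1
  · intro v hv hc
    refine two_or_move (k0 := none) (Or.inl rfl) fun k hk ht => ?_
    have hba : (some b : Option (Fin 8)) ≠ some a := fun h' =>
      hab.ne' (Option.some_injective _ h')
    have hvb : v ∉ U (some b) := h.nin (Ne.symm hba) hv
    rcases h.improve hk hv hc ht with h' | h'
    · refine absurd (hmin _ h') (not_le.2 (m9_lt2 (v := v) ?_ ?_ ?_ hv ?_ ?_))
      · rw [Function.update_of_ne (by simp)]
      · rw [Function.update_self]; exact Set.sdiff_subset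
      · rw [Function.update_of_ne hba]
      · rw [Function.update_self]; exact fun h'' => h''.2 rfl
      · rw [Function.update_of_ne hba]; exact hvb
    · rcases k with _ | k
      · refine absurd (hmin _ h') (not_le.2 (m9_lt1 ?_))
        rw [Function.update_self]
        refine Set.ncard_lt_ncard ⟨Set.subset_union_left, fun hs => ?_⟩ (Set.toFinite _)
        exact h.nin (by simp) hv (hs (Or.inr rfl))
      · have hkb : (some b : Option (Fin 8)) ≠ some k := fun h'' =>
          hk.2.1 ⟨rfl, (Option.some_injective _ h'').symm⟩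
        have hka : (some a : Option (Fin 8)) ≠ some k := fun h'' =>
          hk.1.ne (Option.some_injective _ h'')
        refine absurd (hmin _ h') (not_le.2 (m9_lt2 (v := v) ?_ ?_ ?_ hv ?_ ?_))
        · rw [Function.update_of_ne (by simp), Function.update_of_ne (by simp)]
        · rw [Function.update_of_ne hka, Function.update_self]; exact Set.sdiff_subset
        · rw [Function.update_of_ne hkb, Function.update_of_ne hba]
        · rw [Function.update_of_ne hka, Function.update_self]; exact fun h'' => h''.2 rfl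
        · rw [Function.update_of_ne hkb, Function.update_of_ne hba]; exact hvb

/-- **(V8a)** -/
theorem no9 [Finite V] (h3 : Conn3 G) (h5 : ¬ IsMinor (⊤ : SimpleGraph (Fin 5)) G) {a b : Fin 8}
    (hab : V8.Adj a b) : ¬ ∃ U, Mdl G (H9 a b) U := by
  intro hex
  obtain ⟨U, h, hmin⟩ := exists_min (fun U => Mdl G (H9 a b) U) (m9 a b) hex
  obtain ⟨u, hu⟩ := single9 hab h hmin
  obtain ⟨w, hw⟩ := single9 hab.symm (H9_comm a b ▸ h) (fun U' hU' => by
    rw [m9_comm b a, m9_comm b a]
    exact hmin U' (H9_comm a b ▸ hU'))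
  have hu' : u ∈ U (some a) := by rw [hu]; rfl
  have hw' : w ∈ U (some b) := by rw [hw]; rfl
  obtain ⟨c, hca, hcb⟩ := V8_other a b
  obtain ⟨z, hz⟩ := h.ne (some c)
  rcases h3 u w (U none) (h.ne none) (h.nin (by simp) hu') (h.nin (by simp) hw') (by
    intro x hx y hxy
    by_contra hno
    push Not at hno
    obtain ⟨n1, n2, n3⟩ := hno
    by_cases hy : ∃ k, y ∈ U (some k)
    · obtain ⟨k, hk⟩ := hy
      rcases touch9 hab h h5 ⟨x, hx, y, hk, hxy⟩ with rfl | rfl
      · rw [hu] at hk; exact n2 hk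
      · rw [hw] at hk; exact n3 hk
    · push Not at hy
      have hyn : ∀ i, y ∉ U i := by
        rintro (_ | i)
        · exact n1
        · exact hy i
      have h' := h.grow (conn_single G y)
        (fun i => Set.disjoint_singleton_right.2 (hyn i)) (k := none) ⟨x, hx, y, rfl, hxy⟩
      refine absurd (hmin _ h') (not_le.2 (m9_lt1 ?_))
      rw [Function.update_self]
      exact Set.ncard_lt_ncard ⟨Set.subset_union_left, fun hs => n1 (hs (Or.inr rfl))⟩
        (Set.toFinite _)) z with hz' | hz' | hz'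
  · exact h.nin (by simp) hz hz'
  · subst hz'
    exact h.nin (fun h' => hca (Option.some_injective _ h')) hz hu'
  · subst hz'
    exact h.nin (fun h' => hcb (Option.some_injective _ h')) hz hw'

/-- the subdivided edge from a vertex whose only lost contact is `k` -/
theorem sub9 {U : Fin 8 → Set V} (h : Mdl G V8 U) {i k : Fin 8} (hik : V8.Adj i k) {v : V}
    (hv : v ∈ U i) (hc : Con G (U i \ {v}))
    (ht : ∀ j, V8.Adj i j → j ≠ k → Tch G (U i \ {v}) (U j))
    (hn : ¬ Tch G (U i \ {v}) (U k)) : ∃ U', Mdl G (H9 i k) U' := by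
  have hv1 : Tch G (U i \ {v}) {v} := split_tch (h.c i) hv hc
  have hv2 : Tch G {v} (U k) := by
    have h1 := h.t i k hik
    rw [← Set.sdiff_union_of_subset (Set.singleton_subset_iff.2 hv), tch_union_left] at h1
    rcases h1 with h1 | h1
    · exact absurd h1 hn
    · exact h1
  have hvn : ∀ j, v ∉ Function.update U i (U i \ {v}) j := by
    intro j
    by_cases hj : j = i
    · subst hj; rw [Function.update_self]; exact fun h' => h'.2 rfl
    · rw [Function.update_of_ne hj]; exact h.nin (Ne.symm hj) hv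
  have hsub : ∀ j, Function.update U i (U i \ {v}) j ⊆ U j := by
    intro j
    by_cases hj : j = i
    · subst hj; rw [Function.update_self]; exact Set.sdiff_subset
    · rw [Function.update_of_ne hj]
  have hki : k ≠ i := hik.ne'
  refine ⟨fun x => x.elim {v} (Function.update U i (U i \ {v})), ?_, ?_, ?_⟩
  · rintro (_ | j)
    · exact conn_single G v
    · show Con G (Function.update U i (U i \ {v}) j)
      by_cases hj : j = i
      · subst hj; rw [Function.update_self]; exact hc
      · rw [Function.update_of_ne hj]; exact h.c j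
  · rintro (_ | j) (_ | l) hjl
    · exact absurd rfl hjl
    · exact Set.disjoint_singleton_left.2 (hvn l)
    · exact Set.disjoint_singleton_right.2 (hvn j)
    · exact (h.d j l fun h' => hjl (h' ▸ rfl)).mono (hsub j) (hsub l)
  · have key : ∀ l, V8.Adj i l → l ≠ k → Tch G (Function.update U i (U i \ {v}) i)
        (Function.update U i (U i \ {v}) l) := by
      intro l hl hlk
      rw [Function.update_self, Function.update_of_ne hl.ne']
      exact ht l hl hlk
    have key2 : ∀ l, l = i ∨ l = k → Tch G (Function.update U i (U i \ {v}) l) {v} := by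
      rintro l (rfl | rfl)
      · rw [Function.update_self]; exact hv1
      · rw [Function.update_of_ne hki]; exact hv2.symm
    rintro (_ | j) (_ | l) hjl
    · exact absurd hjl id
    · exact (key2 l hjl).symm
    · exact key2 j hjl
    · show Tch G (Function.update U i (U i \ {v}) j) (Function.update U i (U i \ {v}) l)
      by_cases hj : j = i
      · subst hj
        exact key l hjl.1 fun h' => hjl.2.1 ⟨rfl, h'⟩
      · by_cases hl : l = i
        · subst hl
          exact (key j hjl.1.symm fun h' => hjl.2.2 ⟨h', rfl⟩).symm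
        · rw [Function.update_of_ne hj, Function.update_of_ne hl]
          exact h.t j l hjl.1

/-- **(V8b)** -/
theorem card8 [Finite V] (h3 : Conn3 G) (h5 : ¬ IsMinor (⊤ : SimpleGraph (Fin 5)) G)
    (hex : ∃ U, Mdl G V8 U) :
    Nat.card V = 8 ∧ ∀ x y z, G.Adj x y → G.Adj y z → ¬ G.Adj x z := by
  obtain ⟨U, h, hmin⟩ := exists_min (fun U => Mdl G V8 U) (fun U => (⋃ i, U i).ncard) hex
  have hsing : ∀ i, ∃ v, U i = {v} := by
    intro i
    refine h.single (Finset.card_le_three (a := i + 1) (b := i + 7) (c := i + 4)) (V8_nb i) ?_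
    intro v hv hc
    have h4 : V8.Adj i (i + 4) := Or.inr (Or.inr rfl)
    refine two_or_move h4 fun k hk ht => ?_
    by_cases hn : Tch G (U i \ {v}) (U k)
    · have h' : Mdl G V8 (Function.update U i (U i \ {v})) := by
        refine h.drop Set.sdiff_subset hc fun j hj => ?_
        by_cases hjk : j = k
        · subst hjk; exact hn
        · exact ht j hj hjk
      refine absurd (hmin _ h') (not_le.2 (Set.ncard_lt_ncard ⟨?_, fun hs => ?_⟩ (Set.toFinite _)))
      · refine Set.iUnion_subset fun j => ?_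
        by_cases hj : j = i
        · subst hj
          rw [Function.update_self]
          exact Set.sdiff_subset.trans (Set.subset_iUnion U j)
        · rw [Function.update_of_ne hj]; exact Set.subset_iUnion U j
      · obtain ⟨j, hj⟩ := Set.mem_iUnion.1 (hs (Set.mem_iUnion.2 ⟨i, hv⟩))
        by_cases hji : j = i
        · subst hji
          rw [Function.update_self] at hj
          exact hj.2 rfl
        · rw [Function.update_of_ne hji] at hj
          exact h.nin (Ne.symm hji) hv hj
    · exact no9 h3 h5 hk (sub9 h hk hv hc ht hn)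
  choose u hu using hsing
  have huinj : Function.Injective u := by
    intro i j hij
    by_contra hne
    have h1 : u i ∈ U i := by rw [hu]; rfl
    have h2 : u i ∈ U j := by rw [hu j, hij]; rfl
    exact h.nin hne h1 h2
  have hadj : ∀ i j, i ≠ j → G.Adj (u i) (u j) → V8.Adj i j := by
    intro i j hij hG
    by_contra hn
    refine h5 (chord h hij hn ⟨u i, ?_, u j, ?_, hG⟩)
    · rw [hu]; rfl
    · rw [hu]; rfl
  -- there is no other vertex
  have hsurj : Function.Surjective u := by
    intro w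
    by_contra hw
    push Not at hw
    -- a maximal connected set off the `u i`
    obtain ⟨D, ⟨hD, hwD, hDu⟩, hDmin⟩ := exists_min
      (fun D : Set V => Con G D ∧ w ∈ D ∧ ∀ i, u i ∉ D) (fun D => Nat.card V - D.ncard)
      ⟨{w}, conn_single G w, rfl, fun i h' => hw i h'⟩
    have hN : ∀ x ∈ D, ∀ y, G.Adj x y → y ∉ D → ∃ i, y = u i := by
      intro x hx y hxy hy
      by_contra hno
      push Not at hno
      have h1 := hDmin (D ∪ {y}) ⟨con_union hD (conn_single G y) ⟨x, hx, y, rfl, hxy⟩, Or.inl hwD,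
        fun i h' => by
          rcases h' with h' | h'
          · exact hDu i h'
          · exact hno i (show u i = y from h').symm⟩
      have h2 : D.ncard < (D ∪ {y}).ncard :=
        Set.ncard_lt_ncard ⟨Set.subset_union_left, fun hs => hy (hs (Or.inr rfl))⟩ (Set.toFinite _)
      have h3 := ncard_le_card (D ∪ {y})
      have h4 := ncard_le_card D
      omega
    have hnb : ∀ i j, i ≠ j → Tch G D {u i} → Tch G D {u j} → V8.Adj i j := by
      intro i j hij hi hj
      by_contra hn
      have hd : ∀ l, Disjoint (U l) D := by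
        intro l
        rw [hu, Set.disjoint_singleton_left]
        exact hDu l
      have h' := h.grow (k := i) hD hd (by rw [hu]; exact hi.symm)
      refine h5 (chord h' hij hn ?_)
      rw [Function.update_self, Function.update_of_ne (Ne.symm hij), hu j]
      exact hj.mono Set.subset_union_right le_rfl
    have hab : ∃ a b : Fin 8, ∀ i, Tch G D {u i} → i = a ∨ i = b := by
      by_cases h1 : ∃ a, Tch G D {u a}
      · obtain ⟨a, ha⟩ := h1
        by_cases h2 : ∃ b, b ≠ a ∧ Tch G D {u b}
        · obtain ⟨b, hba, hb⟩ := h2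
          refine ⟨a, b, fun i hi => ?_⟩
          by_contra hno
          push Not at hno
          exact V8_tri i a b (hnb i a hno.1 hi ha) (hnb a b (Ne.symm hba) ha hb)
            (hnb i b hno.2 hi hb)
        · exact ⟨a, a, fun i hi => by
            by_contra hno
            push Not at hno
            exact h2 ⟨i, hno.1, hi⟩⟩
      · exact ⟨0, 0, fun i hi => absurd ⟨i, hi⟩ h1⟩
    obtain ⟨a, b, hab⟩ := hab
    obtain ⟨c, hca, hcb⟩ := V8_other a b
    rcases h3 (u a) (u b) D ⟨w, hwD⟩ (hDu a) (hDu b) (by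
      intro x hx y hxy
      by_contra hno
      push Not at hno
      obtain ⟨i, rfl⟩ := hN x hx y hxy hno.1
      rcases hab i ⟨x, hx, u i, rfl, hxy⟩ with rfl | rfl
      · exact hno.2.1 rfl
      · exact hno.2.2 rfl) (u c) with h' | h' | h'
    · exact hDu c h'
    · exact hca (huinj h')
    · exact hcb (huinj h')
  refine ⟨?_, fun x y z hxy hyz hxz => ?_⟩
  · rw [← Nat.card_congr (Equiv.ofBijective u ⟨huinj, hsurj⟩)]
    simp
  · obtain ⟨i, rfl⟩ := hsurj x
    obtain ⟨j, rfl⟩ := hsurj y
    obtain ⟨k, rfl⟩ := hsurj z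
    exact V8_tri i j k (hadj i j (fun h' => hxy.ne (h' ▸ rfl)) hxy)
      (hadj j k (fun h' => hyz.ne (h' ▸ rfl)) hyz) (hadj i k (fun h' => hxz.ne (h' ▸ rfl)) hxz)

end Vale.Agent.P235.K5.W.H427
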